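import Vale.Agent.P097.FD.Defs

/-! # P097 / TOP : statements for the local theorem at a non-circular ellipse -/

set_option linter.all false

open scoped ContDiff

namespace Vale.Agent.P097.TOP

open Vale.Agent.P097 Vale.Agent.P097.FD Filter

/-- the square of the support function of the ellipse centred at the origin -/
noncomputable def EQ (v : Fin 5 → ℝ) (x : ℝ) : ℝ :=
  v 2 + v 3 * Real.cos (2 * x) + v 4 * Real.sin (2 * x)

/-- the support function of an arbitrary ellipse -/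
noncomputable def EF (v : Fin 5 → ℝ) (x : ℝ) : ℝ :=
  v 0 * Real.cos x + v 1 * Real.sin x + √(EQ v x)

/-- the parameters of ellipses -/
def EP : Set (Fin 5 → ℝ) := {v | √(v 3 ^ 2 + v 4 ^ 2) < v 2}

/-- the tangent vectors of the family of ellipses -/
noncomputable def TE (v w : Fin 5 → ℝ) (x : ℝ) : ℝ :=
  w 0 * Real.cos x + w 1 * Real.sin x + EQ w x / √(EQ v x)

/-- `x` is an orbit (of normal angles) on the invariant graph `f` -/
def Orbit (h f : ℝ → ℝ) (x : ℕ → ℝ) : Prop := ∀ j, Step h (x j) (f (x j)) (x (j + 1)) (f (x (j + 1)))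

/-- all the orbits on the invariant graph `f` close after `n` bounces and `p` turns -/
def PQLeaf (h f : ℝ → ℝ) (p n : ℕ) : Prop :=
  InvGraph h f ∧ ∀ x, Orbit h f x → x n = x 0 + 2 * Real.pi * p

/-- the linear functional of an orbit -/
noncomputable def osum (g f : ℝ → ℝ) (n : ℕ) (x : ℕ → ℝ) : ℝ :=
  ∑ j ∈ Finset.range n, g (x j) * Real.sin (f (x j))

/-- [ELLC] compact families of ellipses have a uniform collar and a uniform strip -/
def StELLC : Prop := ∀ K : Set (Fin 5 → ℝ), K ⊆ EP → IsCompact K → ∃ η β M : ℝ,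
  0 < η ∧ 0 < β ∧ 1 ≤ M ∧ ∀ v ∈ K, StripTab β M (EF v) ∧ Collar (EF v) η

/-- [FV] first variation -/
def StFV : Prop := ∀ (e : ℝ → ℝ) (hs es : ℕ → ℝ → ℝ) (ε : ℕ → ℝ) (g : ℝ → ℝ) (η : ℝ), 0 < η →
  (∀ k, SmoothTable (hs k) ∧ SmoothTable (es k) ∧ Collar (hs k) η ∧ Collar (es k) η ∧ 0 < ε k) →
  SmoothTable e → Collar e η → Continuous g → Tendsto ε atTop (nhds 0) →
  TendstoUniformly hs e atTop → TendstoUniformly es e atTop →
  TendstoUniformly (fun k x => (hs k x - es k x) / ε k) g atTop →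
  ∀ (p n : ℕ) (f : ℝ → ℝ), 0 < p → 0 < n → Real.pi * p / n < η → PQLeaf e f p n →
    ∀ x y, Orbit e f x → Orbit e f y → osum g f n x = osum g f n y

/-- [LIN] linear rigidity of a non-circular ellipse -/
def StLIN : Prop := ∀ v ∈ EP, (v 3 ≠ 0 ∨ v 4 ≠ 0) → ∀ g : ℝ → ℝ, (∀ x, AnalyticAt ℝ g x) →
  (∀ x, g (x + 2 * Real.pi) = g x) → ∀ η : ℝ, 0 < η →
  (∀ (p n : ℕ) (f : ℝ → ℝ), 0 < p → 0 < n → Real.pi * p / n < η → PQLeaf (EF v) f p n →
    ∀ x y, Orbit (EF v) f x → Orbit (EF v) f y → osum g f n x = osum g f n y) →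
  ∃ w : Fin 5 → ℝ, ∀ x, g x = TE v w x

/-- [OPEN] the local theorem: near a non-circular ellipse all the tables with a collar of a given
size and given `C^∞` bounds are ellipses. -/
def StOPEN : Prop := ∀ v ∈ EP, (v 3 ≠ 0 ∨ v 4 ≠ 0) → ∀ (η c : ℝ) (A : ℕ → ℝ), 0 < η → 0 < c →
  ∃ κ : ℝ, 0 < κ ∧ ∀ h : ℝ → ℝ, SmoothBd A c h → Collar h η → (∀ x, |h x - EF v x| < κ) →
    ∃ w ∈ EP, h = EF w

end Vale.Agent.P097.TOP
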