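import Vale.Agent.P097.FD.Approx

/-! # P097 / TOP : compactness of periodic functions with a uniform strip -/

set_option linter.all false

namespace Vale.Agent.P097.TOP

open Vale.Agent.P097 Vale.Agent.P097.Reg Vale.Agent.P097.FD
open Complex Set Filter
open scoped ComplexConjugate ContDiff Topology

theorem fc_exp {β C : ℝ} (hβ : 0 < β) {H : ℂ → ℂ} (hH : DifferentiableOn ℂ H (strip β))
    (hb : ∀ z ∈ strip β, ‖H z‖ ≤ C) {h : ℝ → ℝ} (hh : ∀ x : ℝ, H x = h x)
    (hp : ∀ x, h (x + 2 * Real.pi) = h x) (m : ℤ) :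
    ‖fc (2 * Real.pi) (fun x => (h x : ℂ)) m‖ ≤ C * Real.exp (-(β * |(m : ℝ)|)) := by
  have hpi := Real.pi_pos
  have h1 := fc_shift (P := 2 * Real.pi) (by positivity) hβ hH (ext_per hβ hH hh hp) hb m
  have e : (fun x : ℝ => H x) = fun x => (h x : ℂ) := funext hh
  rw [e] at h1
  have e2 : 2 * Real.pi * |(m : ℝ)| * β / (2 * Real.pi) = β * |(m : ℝ)| := by field_simp
  rwa [e2] at h1

theorem subseq {β C : ℝ} (hβ : 0 < β) (g : ℕ → ℝ → ℝ) (G : ℕ → ℂ → ℂ)
    (hG : ∀ n, DifferentiableOn ℂ (G n) (strip β)) (hb : ∀ n, ∀ z ∈ strip β, ‖G n z‖ ≤ C)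
    (hr : ∀ n, ∀ x : ℝ, G n x = g n x) (hp : ∀ n x, g n (x + 2 * Real.pi) = g n x) :
    ∃ (φ : ℕ → ℕ) (g' : ℝ → ℝ), StrictMono φ ∧ (∀ x, AnalyticAt ℝ g' x) ∧
      (∀ x, g' (x + 2 * Real.pi) = g' x) ∧ TendstoUniformly (fun k => g (φ k)) g' atTop := by
  have hpi := Real.pi_pos
  have hP : 0 < 2 * Real.pi := by positivity
  obtain ⟨c, hc⟩ : ∃ c : ℕ → ℤ → ℂ, c = fun n m => fc (2 * Real.pi) (fun x => (g n x : ℂ)) m :=
    ⟨_, rfl⟩
  have hcb : ∀ n m, ‖c n m‖ ≤ C * Real.exp (-(β * |(m : ℝ)|)) := by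
    intro n m; rw [hc]; exact fc_exp hβ (hG n) (hb n) (hr n) (hp n) m
  have hC : 0 ≤ C := by
    have h1 := (norm_nonneg _).trans (hb 0 _ (real_mem hβ 0))
    exact h1
  have hsum : Summable fun m : ℤ => Real.exp (-(β * |(m : ℝ)|)) := by
    simpa using summable_pow_exp hβ 0
  have hcomp : IsCompact (Set.pi univ fun m : ℤ =>
      Metric.closedBall (0 : ℂ) (C * Real.exp (-(β * |(m : ℝ)|)))) :=
    isCompact_univ_pi fun m => isCompact_closedBall _ _
  obtain ⟨a, ha, φ, hφ, hlim⟩ := hcomp.tendsto_subseq (x := c) (fun n => by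
    intro m _
    rw [Metric.mem_closedBall, dist_zero_right]
    exact hcb n m)
  have ha' : ∀ m, ‖a m‖ ≤ C * Real.exp (-(β * |(m : ℝ)|)) := by
    intro m
    have := ha m (mem_univ m)
    rwa [Metric.mem_closedBall, dist_zero_right] at this
  have hlim' : ∀ m, Tendsto (fun k => c (φ k) m) atTop (𝓝 (a m)) := fun m =>
    (tendsto_pi_nhds.1 hlim) m
  -- the limit
  obtain ⟨H, hH⟩ : ∃ H : ℂ → ℂ, H = fun z => ∑' m : ℤ, a m * ex (2 * Real.pi) m z := ⟨_, rfl⟩
  have hex : ∀ (m : ℤ) (x : ℝ), ‖ex (2 * Real.pi) m x‖ = 1 := by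
    intro m x
    rw [r9_ex_norm]
    simp
  have hs1 : Summable fun m : ℤ => C * Real.exp (-(β * |(m : ℝ)|)) := hsum.mul_left C
  have hsa : ∀ x : ℝ, Summable fun m => a m * ex (2 * Real.pi) m x := fun x =>
    Summable.of_norm_bounded hs1 fun m => by rw [norm_mul, hex, mul_one]; exact ha' m
  have hsc : ∀ n, Summable fun m => ‖c n m‖ := fun n =>
    Summable.of_nonneg_of_le (fun m => norm_nonneg _) (hcb n) hs1
  have hcont : ∀ n, Continuous fun x : ℝ => (g n x : ℂ) := by
    intro n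
    exact Complex.continuous_ofReal.comp (ext_contDiff hβ (hG n) (hr n)).continuous
  have hgs : ∀ n (x : ℝ), HasSum (fun m => c n m * ex (2 * Real.pi) m x) (g n x : ℂ) := by
    intro n x
    have h1 := fc_sum hP (hcont n) (fun x => by rw [hp]) (by
      have := hsc n; rw [hc] at this; exact this) x
    rw [hc]; exact h1
  have hHdiff : DifferentiableOn ℂ H (strip (β / 2)) := by
    rw [hH]
    refine Complex.differentiableOn_tsum_of_summable_norm
      (u := fun m : ℤ => C * Real.exp (-(β / 2 * |(m : ℝ)|))) ?_ ?_ (U6.isOpen_strip _) ?_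
    · have := summable_pow_exp (c := β / 2) (by positivity) 0
      simp only [pow_zero, one_mul] at this
      exact this.mul_left C
    · intro m z _
      have : DifferentiableAt ℂ (fun z => a m * ex (2 * Real.pi) m z) z := by
        unfold ex
        exact (((differentiableAt_id.const_mul _).div_const _).cexp).const_mul _
      exact this.differentiableWithinAt
    · intro m z hz
      rw [mem_strip] at hz
      rw [norm_mul]
      have h1 := r9_ex_le hP m z
      have h2 : 2 * Real.pi * |(m : ℝ)| * |z.im| / (2 * Real.pi) ≤ β / 2 * |(m : ℝ)| := by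
        have e : 2 * Real.pi * |(m : ℝ)| * |z.im| / (2 * Real.pi) = |(m : ℝ)| * |z.im| := by
          field_simp
        rw [e, mul_comm]
        exact mul_le_mul_of_nonneg_right hz.le (abs_nonneg _)
      calc ‖a m‖ * ‖ex (2 * Real.pi) m z‖
          ≤ (C * Real.exp (-(β * |(m : ℝ)|))) * Real.exp (β / 2 * |(m : ℝ)|) :=
            mul_le_mul (ha' m) (h1.trans (Real.exp_le_exp.2 h2)) (norm_nonneg _) (by positivity)
        _ = C * Real.exp (-(β / 2 * |(m : ℝ)|)) := by
            rw [mul_assoc, ← Real.exp_add]; congr 2; ring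
  have hβ2 : 0 < β / 2 := by positivity
  have hu : Tendsto (fun k => ∑' m, ‖c (φ k) m - a m‖) atTop (𝓝 0) := by
    have h1 : Tendsto (fun k => ∑' m, ‖c (φ k) m - a m‖) atTop (𝓝 (∑' m : ℤ, (0 : ℝ))) := by
      refine tendsto_tsum_of_dominated_convergence
        (bound := fun m : ℤ => 2 * C * Real.exp (-(β * |(m : ℝ)|))) (hsum.mul_left (2 * C)) ?_ ?_
      · intro m
        have := ((hlim' m).sub_const (a m)).norm
        simpa using this
      · refine Eventually.of_forall fun k m => ?_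
        rw [norm_norm]
        refine (norm_sub_le _ _).trans ?_
        linarith [hcb (φ k) m, ha' m]
    simpa using h1
  have hkey : ∀ k (x : ℝ), ‖(g (φ k) x : ℂ) - H x‖ ≤ ∑' m, ‖c (φ k) m - a m‖ := by
    intro k x
    have h1 := (hgs (φ k) x).sub (hsa x).hasSum
    have h2 : (fun m => c (φ k) m * ex (2 * Real.pi) m x - a m * ex (2 * Real.pi) m x) =
        fun m => (c (φ k) m - a m) * ex (2 * Real.pi) m x := by funext m; ring
    rw [h2] at h1
    have h3 : H x = ∑' m : ℤ, a m * ex (2 * Real.pi) m x := by rw [hH]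
    rw [h3, ← h1.tsum_eq]
    have h4 : Summable fun m => ‖c (φ k) m - a m‖ := by
      refine Summable.of_nonneg_of_le (fun m => norm_nonneg _) (fun m => ?_) (hs1.mul_left 2)
      refine (norm_sub_le _ _).trans ?_
      linarith [hcb (φ k) m, ha' m]
    refine tsum_of_norm_bounded h4.hasSum fun m => ?_
    rw [norm_mul, hex, mul_one]
  refine ⟨φ, fun x => (H x).re, hφ, fun x => ?_, fun x => ?_, ?_⟩
  · have h1 : AnalyticAt ℂ H (x : ℂ) :=
      hHdiff.analyticAt ((U6.isOpen_strip _).mem_nhds (real_mem hβ2 x))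
    have h3 : AnalyticAt ℝ H (Complex.ofRealCLM x) := h1.restrictScalars
    have h4 := h3.comp (Complex.ofRealCLM.analyticAt x)
    exact (Complex.reCLM.analyticAt _).comp h4
  · have e : ((x + 2 * Real.pi : ℝ) : ℂ) = (x : ℂ) + ((2 * Real.pi : ℝ) : ℂ) := by push_cast; ring
    simp only
    rw [e, hH]
    simp only [r9_ex_add hP.ne']
  · rw [Metric.tendstoUniformly_iff]
    intro ε hε
    filter_upwards [hu.eventually (gt_mem_nhds hε)] with k hk x
    rw [dist_comm, Real.dist_eq]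
    have h1 : g (φ k) x - (H x).re = ((g (φ k) x : ℂ) - H x).re := by simp
    rw [h1]
    exact (abs_re_le_norm _).trans_lt ((hkey k x).trans_lt hk)

end Vale.Agent.P097.TOP
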