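import Vale.Agent.P097.TOP.Fam
import Vale.Agent.P097.TOP.Sub
import Vale.Agent.P097.FD.Main
import Vale.Agent.P097.H500.Core

/-! # P097 / TOP : the local theorem from the linear rigidity -/

set_option linter.all false

namespace Vale.Agent.P097.TOP

open Vale.Agent.P097 Vale.Agent.P097.FD
open Filter Metric
open scoped ContDiff Topology

theorem StripTab.mono {β β' M M' : ℝ} (hM : 0 ≤ M) (hβ : β' ≤ β) (hMM : M ≤ M') {h : ℝ → ℝ}
    (S : StripTab β M h) (hpos : ∀ x, 0 < h x + deriv (deriv h) x) : StripTab β' M' h := by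
  obtain ⟨a, b, H, c, d, e⟩ := S
  refine ⟨a, fun x => (b x).trans (mul_le_mul_of_nonneg_right hMM (hpos x).le), H, ?_, ?_, e⟩
  · exact DifferentiableOn.mono c fun z hz => lt_of_lt_of_le hz hβ
  · intro z hz
    exact (d z (lt_of_lt_of_le hz hβ)).trans hMM

/-- the set of the distances to ellipses with parameters in `K` -/
def dset (K : Set (Fin 5 → ℝ)) (h : ℝ → ℝ) : Set ℝ := {b | 0 ≤ b ∧ ∃ v ∈ K, ∀ x, |h x - EF v x| ≤ b}

theorem dset_bdd (K : Set (Fin 5 → ℝ)) (h : ℝ → ℝ) : BddBelow (dset K h) := ⟨0, fun _ hb => hb.1⟩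

theorem EF_tendsto {r s : ℝ} {v0 : Fin 5 → ℝ} (hs : 0 < s)
    (hK : ∀ v ∈ closedBall v0 r, ∀ x, s ^ 2 ≤ EQ v x) {u : ℕ → Fin 5 → ℝ} {v : Fin 5 → ℝ}
    (hu : ∀ k, u k ∈ closedBall v0 r) (hv : v ∈ closedBall v0 r) (hl : Tendsto u atTop (𝓝 v))
    (x : ℝ) : Tendsto (fun k => EF (u k) x) atTop (𝓝 (EF v x)) := by
  have h0 : Tendsto (fun k => ‖u k - v‖) atTop (𝓝 0) := by
    have := (hl.sub_const v).norm
    simpa using this
  rw [tendsto_iff_norm_sub_tendsto_zero]
  refine squeeze_zero (fun _ => norm_nonneg _)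
    (fun k => EF_lip hs x (hK _ (hu k) x) (hK _ hv x)) ?_
  simpa using h0.const_mul (2 + 3 / (2 * s))

/-- the distance to the family is positive when the table is not an ellipse -/
theorem dist_pos {r s : ℝ} {v0 : Fin 5 → ℝ} (hr : 0 < r) (hs : 0 < s)
    (hK : ∀ v ∈ closedBall v0 r, ∀ x, s ^ 2 ≤ EQ v x) {h : ℝ → ℝ}
    (hne : (dset (closedBall v0 r) h).Nonempty) (hn : ∀ w ∈ closedBall v0 r, h ≠ EF w) :
    0 < sInf (dset (closedBall v0 r) h) := by
  have h0 : 0 ≤ sInf (dset (closedBall v0 r) h) := le_csInf hne fun b hb => hb.1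
  rcases h0.eq_or_lt with h1 | h1
  · exfalso
    have h2 : ∀ k : ℕ, ∃ v ∈ closedBall v0 r, ∀ x, |h x - EF v x| ≤ 1 / ((k : ℝ) + 1) := by
      intro k
      have h3 : sInf (dset (closedBall v0 r) h) < 1 / ((k : ℝ) + 1) := by
        rw [← h1]; positivity
      obtain ⟨b, ⟨hb0, v, hv, hb⟩, hbk⟩ := exists_lt_of_csInf_lt hne h3
      exact ⟨v, hv, fun x => (hb x).trans hbk.le⟩
    choose u hu hu2 using h2
    obtain ⟨v, hv, φ, hφ, hlim⟩ := (isCompact_closedBall v0 r).tendsto_subseq hu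
    refine hn v hv (funext fun x => ?_)
    have h4 := EF_tendsto hs hK (u := u ∘ φ) (fun k => hu _) hv hlim x
    have h5 : Tendsto (fun k => |h x - EF ((u ∘ φ) k) x|) atTop (𝓝 |h x - EF v x|) :=
      (h4.const_sub (h x)).abs
    have h6 : Tendsto (fun k => |h x - EF ((u ∘ φ) k) x|) atTop (𝓝 0) := by
      refine squeeze_zero (fun _ => abs_nonneg _) (fun k => hu2 (φ k) x) ?_
      exact (tendsto_one_div_add_atTop_nhds_zero_nat (𝕜 := ℝ)).comp hφ.tendsto_atTop
    have h7 := tendsto_nhds_unique h5 h6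
    have h8 := abs_eq_zero.1 h7
    linarith
  · exact h1

theorem open_of (hE : StELLC) (hV : StFV) (hL : StLIN) : StOPEN := by
  intro v0 hv0 hnc η c A hη hc
  by_contra hcon
  push Not at hcon
  -- a sequence of counterexamples
  have hex : ∀ n : ℕ, ∃ h : ℝ → ℝ, SmoothBd A c h ∧ Collar h η ∧
      (∀ x, |h x - EF v0 x| < 1 / ((n : ℝ) + 1)) ∧ ∀ w ∈ EP, h ≠ EF w := by
    intro n
    obtain ⟨h, a1, a2, a3, a4⟩ := hcon (1 / ((n : ℝ) + 1)) (by positivity)
    exact ⟨h, a1, a2, a3, a4⟩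
  choose h hS hCol hclose hnot using hex
  obtain ⟨r, s, hr, hs, hKE, hK⟩ := exists_ball hv0
  have hv0K : v0 ∈ closedBall v0 r := mem_closedBall_self hr.le
  obtain ⟨η2, β2, M2, hη2, hβ2, hM2, hell⟩ := hE _ hKE (isCompact_closedBall v0 r)
  obtain ⟨β1, M1, hβ1, hM1, hreg⟩ := H500.stR η c A hη hc
  -- uniform constants
  obtain ⟨η', hη'⟩ : ∃ η', η' = min η η2 := ⟨_, rfl⟩
  obtain ⟨β, hβ⟩ : ∃ β, β = min β1 β2 := ⟨_, rfl⟩
  obtain ⟨M, hM⟩ : ∃ M, M = max M1 M2 := ⟨_, rfl⟩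
  have hη'0 : 0 < η' := by rw [hη']; exact lt_min hη hη2
  have hβ0 : 0 < β := by rw [hβ]; exact lt_min hβ1 hβ2
  have hM10 : 1 ≤ M := by rw [hM]; exact hM1.trans (le_max_left _ _)
  obtain ⟨β', C, hβ'0, hC0, hF⟩ := stF η' β M hη'0 hβ0 hM10
  have hSh : ∀ n, SmoothTable (h n) := fun n =>
    ⟨(hS n).1, (hS n).2.1, fun x => lt_of_lt_of_le hc ((hS n).2.2.1 x)⟩
  have hTh : ∀ n, StripTab β M (h n) := fun n =>
    StripTab.mono (by linarith) (by rw [hβ]; exact min_le_left _ _) (by rw [hM]; exact le_max_left _ _)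
      (hreg (h n) (hS n) (hCol n)) (hSh n).2.2
  have hCh : ∀ n, Collar (h n) η' := fun n => (hCol n).mono' (by rw [hη']; exact min_le_left _ _)
  have hSe : ∀ v ∈ closedBall v0 r, SmoothTable (EF v) := fun v hv =>
    ⟨(hell v hv).1.contDiff hβ2, (hell v hv).1.1, (hell v hv).1.rad_pos hM2⟩
  have hTe : ∀ v ∈ closedBall v0 r, StripTab β M (EF v) := fun v hv =>
    StripTab.mono (by linarith) (by rw [hβ]; exact min_le_right _ _)
      (by rw [hM]; exact le_max_right _ _) (hell v hv).1 (hSe v hv).2.2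
  have hCe : ∀ v ∈ closedBall v0 r, Collar (EF v) η' := fun v hv =>
    (hell v hv).2.mono' (by rw [hη']; exact min_le_right _ _)
  -- distance to the family
  obtain ⟨d, hd⟩ : ∃ d : ℕ → ℝ, d = fun n => sInf (dset (closedBall v0 r) (h n)) := ⟨_, rfl⟩
  have hmem : ∀ n : ℕ, 1 / ((n : ℝ) + 1) ∈ dset (closedBall v0 r) (h n) := fun n =>
    ⟨by positivity, v0, hv0K, fun x => (hclose n x).le⟩
  have hdn : ∀ n : ℕ, d n ≤ 1 / ((n : ℝ) + 1) := by
    intro n; rw [hd]; exact csInf_le (dset_bdd _ _) (hmem n)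
  have hd0 : ∀ n, 0 < d n := by
    intro n; rw [hd]
    exact dist_pos hr hs hK ⟨_, hmem n⟩ fun w hw => hnot n w (hKE hw)
  have hd1 : Tendsto d atTop (𝓝 0) :=
    squeeze_zero (fun n => (hd0 n).le) hdn tendsto_one_div_add_atTop_nhds_zero_nat
  have hch : ∀ n, ∃ v ∈ closedBall v0 r, ∀ x, |h n x - EF v x| ≤ 2 * d n := by
    intro n
    have h1 : sInf (dset (closedBall v0 r) (h n)) < 2 * d n := by
      have : sInf (dset (closedBall v0 r) (h n)) = d n := by rw [hd]
      rw [this]; linarith [hd0 n]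
    obtain ⟨b, ⟨hb0, v, hv, hb⟩, hbk⟩ := exists_lt_of_csInf_lt ⟨_, hmem n⟩ h1
    exact ⟨v, hv, fun x => (hb x).trans hbk.le⟩
  choose v hvK hvd using hch
  -- the quotients
  have hG : ∀ n, ∃ G : ℂ → ℂ, DifferentiableOn ℂ G {z : ℂ | |z.im| < β'} ∧
      (∀ z : ℂ, |z.im| < β' → ‖G z‖ ≤ C * (2 * d n)) ∧ ∀ x : ℝ, G x = h n x - EF (v n) x := fun n =>
    hF (h n) (EF (v n)) (hTh n) (hTe _ (hvK n)) (hCh n) (hCe _ (hvK n)) (2 * d n) (hvd n)
  choose G hG1 hG2 hG3 using hG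
  obtain ⟨φ, g, hφ, hgan, hgper, hglim⟩ := subseq (C := C) hβ'0
    (fun n x => (h n x - EF (v n) x) / (2 * d n)) (fun n z => ((2 * d n : ℝ) : ℂ)⁻¹ * G n z)
    (fun n => (hG1 n).const_mul _) (fun n z hz => by
      have h0 : 0 < 2 * d n := by linarith [hd0 n]
      rw [norm_mul, norm_inv, Complex.norm_real, Real.norm_of_nonneg h0.le, inv_mul_le_iff₀ h0]
      linarith [hG2 n z hz]) (fun n x => by
      rw [hG3]; push_cast; ring) (fun n x => by
      rw [(hS n).2.1, EF_per])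
  -- convergence of the parameters
  obtain ⟨w0, hw0, ψ, hψ, hvlim⟩ := (isCompact_closedBall v0 r).tendsto_subseq
    (x := fun k => v (φ k)) (fun k => hvK _)
  obtain ⟨N, hN⟩ : ∃ N : ℕ → ℕ, N = fun k => φ (ψ k) := ⟨_, rfl⟩
  have hNm : StrictMono N := by rw [hN]; exact hφ.comp hψ
  have hNt : Tendsto N atTop atTop := hNm.tendsto_atTop
  have hvlim' : Tendsto (fun k => v (N k)) atTop (𝓝 w0) := by rw [hN]; exact hvlim
  have hgl : TendstoUniformly (fun k x => (h (N k) x - EF (v (N k)) x) / (2 * d (N k))) g atTop := by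
    rw [Metric.tendstoUniformly_iff] at hglim ⊢
    intro ε hε
    have := hψ.tendsto_atTop.eventually (hglim ε hε)
    rw [hN]; exact this
  have hdN : Tendsto (fun k => d (N k)) atTop (𝓝 0) := hd1.comp hNt
  have hclose' : ∀ n x, |EF (v n) x - EF v0 x| ≤ 3 * (1 / ((n : ℝ) + 1)) := by
    intro n x
    have h1 := hvd n x
    have h2 := hclose n x
    have h3 := hdn n
    have h4 : |EF (v n) x - EF v0 x| ≤ |h n x - EF (v n) x| + |h n x - EF v0 x| := by
      have e : EF (v n) x - EF v0 x = (h n x - EF v0 x) - (h n x - EF (v n) x) := by ring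
      rw [e]
      have := abs_sub (h n x - EF v0 x) (h n x - EF (v n) x)
      linarith
    linarith
  have h3n : Tendsto (fun n : ℕ => 3 * (1 / ((n : ℝ) + 1))) atTop (𝓝 0) := by
    simpa using (tendsto_one_div_add_atTop_nhds_zero_nat (𝕜 := ℝ)).const_mul 3
  have hw0v : w0 = v0 := by
    refine EF_inj (hKE hw0) hv0 fun x => ?_
    have h1 := EF_tendsto hs hK (u := fun k => v (N k)) (fun k => hvK _) hw0 hvlim' x
    have h2 : Tendsto (fun k => EF (v (N k)) x) atTop (𝓝 (EF v0 x)) := by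
      rw [tendsto_iff_norm_sub_tendsto_zero]
      exact squeeze_zero (fun _ => norm_nonneg _) (fun k => hclose' (N k) x) (h3n.comp hNt)
    exact tendsto_nhds_unique h1 h2
  rw [hw0v] at hvlim'
  -- first variation and linear rigidity
  have hu1 : TendstoUniformly (fun k => h (N k)) (EF v0) atTop := by
    rw [Metric.tendstoUniformly_iff]
    intro ε hε
    have h1 : Tendsto (fun n : ℕ => 1 / ((n : ℝ) + 1)) atTop (𝓝 0) :=
      tendsto_one_div_add_atTop_nhds_zero_nat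
    filter_upwards [(h1.comp hNt).eventually (gt_mem_nhds hε)] with k hk x
    rw [dist_comm, Real.dist_eq]
    exact (hclose (N k) x).trans hk
  have hu2 : TendstoUniformly (fun k => EF (v (N k))) (EF v0) atTop := by
    rw [Metric.tendstoUniformly_iff]
    intro ε hε
    filter_upwards [(h3n.comp hNt).eventually (gt_mem_nhds hε)] with k hk x
    rw [dist_comm, Real.dist_eq]
    exact (hclose' (N k) x).trans_lt hk
  have hgc : Continuous g := continuous_iff_continuousAt.2 fun x => (hgan x).continuousAt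
  have hε0 : Tendsto (fun k => 2 * d (N k)) atTop (𝓝 0) := by simpa using hdN.const_mul 2
  have hlin : ∀ (p n : ℕ) (f : ℝ → ℝ), 0 < p → 0 < n → Real.pi * p / n < η' →
      PQLeaf (EF v0) f p n → ∀ x y, Orbit (EF v0) f x → Orbit (EF v0) f y →
        osum g f n x = osum g f n y :=
    hV (EF v0) (fun k => h (N k)) (fun k => EF (v (N k))) (fun k => 2 * d (N k)) g η' hη'0
      (fun k => ⟨hSh _, hSe _ (hvK _), hCh _, hCe _ (hvK _), by linarith [hd0 (N k)]⟩)
      (hSe v0 hv0K) (hCe v0 hv0K) hgc hε0 hu1 hu2 hgl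
  obtain ⟨w, hw⟩ := hL v0 hv0 hnc g hgan hgper η' hη'0 hlin
  -- contradiction: a better ellipse
  have hnv : Tendsto (fun k => ‖v (N k) - v0‖) atTop (𝓝 0) := by
    have := (hvlim'.sub_const v0).norm
    simpa using this
  have c1 : ∀ᶠ k in atTop, ∀ x, |(h (N k) x - EF (v (N k)) x) / (2 * d (N k)) - g x| < 1 / 8 := by
    have := (Metric.tendstoUniformly_iff.1 hgl) (1 / 8) (by norm_num)
    filter_upwards [this] with k hk x
    have := hk x
    rwa [dist_comm, Real.dist_eq] at this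
  have c2 : ∀ᶠ k in atTop, 9 * ‖w‖ / (2 * s ^ 3) * ‖v (N k) - v0‖ < 1 / 8 := by
    have h1 : Tendsto (fun k => 9 * ‖w‖ / (2 * s ^ 3) * ‖v (N k) - v0‖) atTop (𝓝 0) := by
      simpa using hnv.const_mul (9 * ‖w‖ / (2 * s ^ 3))
    exact h1.eventually (gt_mem_nhds (by norm_num))
  have c3 : ∀ᶠ k in atTop, 2 * d (N k) * (9 * ‖w‖ ^ 2 / (2 * s ^ 3)) < 1 / 8 := by
    have h1 : Tendsto (fun k => 2 * d (N k) * (9 * ‖w‖ ^ 2 / (2 * s ^ 3))) atTop (𝓝 0) := by
      simpa using hε0.mul_const (9 * ‖w‖ ^ 2 / (2 * s ^ 3))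
    exact h1.eventually (gt_mem_nhds (by norm_num))
  have c4 : ∀ᶠ k in atTop, ‖v (N k) - v0‖ + 2 * d (N k) * ‖dir w‖ < r := by
    have h1 : Tendsto (fun k => ‖v (N k) - v0‖ + 2 * d (N k) * ‖dir w‖) atTop (𝓝 0) := by
      simpa using hnv.add (hε0.mul_const ‖dir w‖)
    exact h1.eventually (gt_mem_nhds hr)
  obtain ⟨k, k1, k2, k3, k4⟩ := (c1.and (c2.and (c3.and c4))).exists
  obtain ⟨b, hb⟩ : ∃ b, b = 2 * d (N k) := ⟨_, rfl⟩
  rw [← hb] at k1 k3 k4
  have hb0 : 0 < b := by rw [hb]; linarith [hd0 (N k)]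
  have hV' : v (N k) + b • dir w ∈ closedBall v0 r := by
    rw [mem_closedBall, dist_eq_norm]
    have e : v (N k) + b • dir w - v0 = (v (N k) - v0) + b • dir w := by abel
    rw [e]
    refine (norm_add_le _ _).trans ?_
    rw [norm_smul, Real.norm_of_nonneg hb0.le]
    exact k4.le
  have hbest : ∀ x, |h (N k) x - EF (v (N k) + b • dir w) x| ≤ b * (3 / 8) := by
    intro x
    have t1 := k1 x
    have t2 := TE_lip (w := w) hs x (hK _ (hvK (N k)) x) (hK _ hv0K x)
    have t3 := EF_taylor hs x (hK _ (hvK (N k)) x) (hK _ hV' x)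
    have e : h (N k) x - EF (v (N k) + b • dir w) x =
        b * ((h (N k) x - EF (v (N k)) x) / b - g x) - b * (TE (v (N k)) w x - TE v0 w x)
          - (EF (v (N k) + b • dir w) x - EF (v (N k)) x - b * TE (v (N k)) w x) := by
      rw [← hw x]
      have : b * ((h (N k) x - EF (v (N k)) x) / b - g x) =
          (h (N k) x - EF (v (N k)) x) - b * g x := by field_simp
      rw [this]; ring
    have u1 : |b * ((h (N k) x - EF (v (N k)) x) / b - g x)| ≤ b * (1 / 8) := by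
      rw [abs_mul, abs_of_pos hb0]; exact mul_le_mul_of_nonneg_left t1.le hb0.le
    have u2 : |b * (TE (v (N k)) w x - TE v0 w x)| ≤ b * (1 / 8) := by
      rw [abs_mul, abs_of_pos hb0]
      exact mul_le_mul_of_nonneg_left (t2.trans k2.le) hb0.le
    have u3 : |EF (v (N k) + b • dir w) x - EF (v (N k)) x - b * TE (v (N k)) w x| ≤ b * (1 / 8) := by
      refine t3.trans ?_
      have : b ^ 2 * (9 * ‖w‖ ^ 2 / (2 * s ^ 3)) = b * (b * (9 * ‖w‖ ^ 2 / (2 * s ^ 3))) := by ring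
      rw [this]
      exact mul_le_mul_of_nonneg_left k3.le hb0.le
    rw [e]
    have a1 := abs_sub (b * ((h (N k) x - EF (v (N k)) x) / b - g x)
      - b * (TE (v (N k)) w x - TE v0 w x))
      (EF (v (N k) + b • dir w) x - EF (v (N k)) x - b * TE (v (N k)) w x)
    have a2 := abs_sub (b * ((h (N k) x - EF (v (N k)) x) / b - g x))
      (b * (TE (v (N k)) w x - TE v0 w x))
    linarith
  have hle : d (N k) ≤ b * (3 / 8) := by
    have h1 : b * (3 / 8) ∈ dset (closedBall v0 r) (h (N k)) :=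
      ⟨by positivity, v (N k) + b • dir w, hV', hbest⟩
    have h2 := csInf_le (dset_bdd _ _) h1
    rw [hd]; exact h2
  have := hd0 (N k)
  rw [hb] at hle
  linarith

end Vale.Agent.P097.TOP
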