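import Vale.Agent.P097.TOP.Defs

/-! # P097 / TOP : elementary facts on the family of ellipses -/

set_option linter.all false

namespace Vale.Agent.P097.TOP

open Vale.Agent.P097 Filter Topology

theorem EQ_abs (w : Fin 5 → ℝ) (x : ℝ) : |EQ w x| ≤ 3 * ‖w‖ := by
  have a2 : |w 2| ≤ ‖w‖ := norm_le_pi_norm w 2
  have a3 : |w 3| ≤ ‖w‖ := norm_le_pi_norm w 3
  have a4 : |w 4| ≤ ‖w‖ := norm_le_pi_norm w 4
  have b3 : |w 3 * Real.cos (2 * x)| ≤ ‖w‖ := by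
    rw [abs_mul]
    calc |w 3| * |Real.cos (2 * x)| ≤ ‖w‖ * 1 :=
          mul_le_mul a3 (Real.abs_cos_le_one _) (abs_nonneg _) (norm_nonneg _)
      _ = ‖w‖ := mul_one _
  have b4 : |w 4 * Real.sin (2 * x)| ≤ ‖w‖ := by
    rw [abs_mul]
    calc |w 4| * |Real.sin (2 * x)| ≤ ‖w‖ * 1 :=
          mul_le_mul a4 (Real.abs_sin_le_one _) (abs_nonneg _) (norm_nonneg _)
      _ = ‖w‖ := mul_one _
  unfold EQ
  calc _ ≤ |w 2 + w 3 * Real.cos (2 * x)| + |w 4 * Real.sin (2 * x)| := abs_add_le _ _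
    _ ≤ |w 2| + |w 3 * Real.cos (2 * x)| + |w 4 * Real.sin (2 * x)| := by
        linarith [abs_add_le (w 2) (w 3 * Real.cos (2 * x))]
    _ ≤ 3 * ‖w‖ := by linarith

theorem EL_abs (w : Fin 5 → ℝ) (x : ℝ) : |w 0 * Real.cos x + w 1 * Real.sin x| ≤ 2 * ‖w‖ := by
  have a0 : |w 0| ≤ ‖w‖ := norm_le_pi_norm w 0
  have a1 : |w 1| ≤ ‖w‖ := norm_le_pi_norm w 1
  have b0 : |w 0 * Real.cos x| ≤ ‖w‖ := by
    rw [abs_mul]
    calc |w 0| * |Real.cos x| ≤ ‖w‖ * 1 :=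
          mul_le_mul a0 (Real.abs_cos_le_one _) (abs_nonneg _) (norm_nonneg _)
      _ = ‖w‖ := mul_one _
  have b1 : |w 1 * Real.sin x| ≤ ‖w‖ := by
    rw [abs_mul]
    calc |w 1| * |Real.sin x| ≤ ‖w‖ * 1 :=
          mul_le_mul a1 (Real.abs_sin_le_one _) (abs_nonneg _) (norm_nonneg _)
      _ = ‖w‖ := mul_one _
  linarith [abs_add_le (w 0 * Real.cos x) (w 1 * Real.sin x)]

theorem EQ_sub (v w : Fin 5 → ℝ) (x : ℝ) : EQ v x - EQ w x = EQ (v - w) x := by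
  unfold EQ; simp only [Pi.sub_apply]; ring

theorem EQ_ge (v : Fin 5 → ℝ) (x : ℝ) : v 2 - √(v 3 ^ 2 + v 4 ^ 2) ≤ EQ v x := by
  have h1 : |v 3 * Real.cos (2 * x) + v 4 * Real.sin (2 * x)| ≤ √(v 3 ^ 2 + v 4 ^ 2) := by
    apply Real.abs_le_sqrt
    have h2 := Real.sin_sq_add_cos_sq (2 * x)
    have h3 : (v 3 ^ 2 + v 4 ^ 2) = (v 3 ^ 2 + v 4 ^ 2) * (Real.sin (2 * x) ^ 2 + Real.cos (2 * x) ^ 2) := by
      rw [h2, mul_one]
    rw [h3]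
    nlinarith [sq_nonneg (v 3 * Real.sin (2 * x) - v 4 * Real.cos (2 * x))]
  have h2 := (abs_le.1 h1).1
  unfold EQ
  linarith

theorem sqrt_ge {a s : ℝ} (hs : 0 < s) (ha : s ^ 2 ≤ a) : s ≤ √a := Real.le_sqrt_of_sq_le ha

theorem sq1 {a b s : ℝ} (hs : 0 < s) (ha : s ^ 2 ≤ a) (hb : s ^ 2 ≤ b) :
    |√a - √b| ≤ |a - b| / (2 * s) := by
  have p1 := sqrt_ge hs ha
  have p2 := sqrt_ge hs hb
  have a0 : 0 ≤ a := (sq_nonneg s).trans ha
  have b0 : 0 ≤ b := (sq_nonneg s).trans hb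
  have e : a - b = (√a - √b) * (√a + √b) := by
    have e1 := Real.mul_self_sqrt a0
    have e2 := Real.mul_self_sqrt b0
    ring_nf
    rw [Real.sq_sqrt a0, Real.sq_sqrt b0]
  rw [le_div_iff₀ (by positivity), e, abs_mul]
  refine mul_le_mul_of_nonneg_left ?_ (abs_nonneg _)
  rw [abs_of_nonneg (by linarith)]
  linarith

theorem sq2 {a b s : ℝ} (hs : 0 < s) (ha : s ^ 2 ≤ a) (hb : s ^ 2 ≤ b) :
    |√a - √b - (a - b) / (2 * √b)| ≤ (a - b) ^ 2 / (8 * s ^ 3) := by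
  have p1 := sqrt_ge hs ha
  have p2 := sqrt_ge hs hb
  have a0 : 0 ≤ a := (sq_nonneg s).trans ha
  have b0 : 0 ≤ b := (sq_nonneg s).trans hb
  have q0 : 0 < √b := by linarith
  have e : a - b = (√a - √b) * (√a + √b) := by
    ring_nf
    rw [Real.sq_sqrt a0, Real.sq_sqrt b0]
  have e2 : √a - √b - (a - b) / (2 * √b) = -((√a - √b) ^ 2 / (2 * √b)) := by
    rw [e]; field_simp; ring
  have h1 := sq1 hs ha hb
  have h2 : (√a - √b) ^ 2 ≤ (a - b) ^ 2 / (4 * s ^ 2) := by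
    calc (√a - √b) ^ 2 = |√a - √b| ^ 2 := (sq_abs _).symm
      _ ≤ (|a - b| / (2 * s)) ^ 2 := pow_le_pow_left₀ (abs_nonneg _) h1 2
      _ = (a - b) ^ 2 / (4 * s ^ 2) := by rw [div_pow, sq_abs]; ring
  rw [e2, abs_neg, abs_of_nonneg (by positivity)]
  calc (√a - √b) ^ 2 / (2 * √b) ≤ ((a - b) ^ 2 / (4 * s ^ 2)) / (2 * s) := by
        gcongr
    _ = (a - b) ^ 2 / (8 * s ^ 3) := by field_simp; ring

theorem sq3 {a b s : ℝ} (hs : 0 < s) (ha : s ^ 2 ≤ a) (hb : s ^ 2 ≤ b) :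
    |(√a)⁻¹ - (√b)⁻¹| ≤ |a - b| / (2 * s ^ 3) := by
  have p1 := sqrt_ge hs ha
  have p2 := sqrt_ge hs hb
  have q0 : 0 < √b := by linarith
  have r0 : 0 < √a := by linarith
  have h1 := sq1 hs ha hb
  have e : (√a)⁻¹ - (√b)⁻¹ = -((√a - √b) / (√a * √b)) := by field_simp; ring
  rw [e, abs_neg, abs_div, abs_of_pos (by positivity : 0 < √a * √b)]
  calc |√a - √b| / (√a * √b) ≤ (|a - b| / (2 * s)) / (s * s) := by gcongr
    _ = |a - b| / (2 * s ^ 3) := by field_simp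

/-- a closed ball around an admissible parameter, with a uniform lower bound -/
theorem exists_ball {v0 : Fin 5 → ℝ} (hv : v0 ∈ EP) : ∃ r s : ℝ, 0 < r ∧ 0 < s ∧
    Metric.closedBall v0 r ⊆ EP ∧ ∀ v ∈ Metric.closedBall v0 r, ∀ x, s ^ 2 ≤ EQ v x := by
  have hc : Continuous fun v : Fin 5 → ℝ => v 2 - √(v 3 ^ 2 + v 4 ^ 2) := by fun_prop
  have h0 : 0 < v0 2 - √(v0 3 ^ 2 + v0 4 ^ 2) := sub_pos.2 hv
  obtain ⟨m, hm⟩ : ∃ m, m = (v0 2 - √(v0 3 ^ 2 + v0 4 ^ 2)) / 2 := ⟨_, rfl⟩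
  have hm0 : 0 < m := by rw [hm]; linarith
  have hop : IsOpen {v : Fin 5 → ℝ | m < v 2 - √(v 3 ^ 2 + v 4 ^ 2)} := isOpen_lt continuous_const hc
  have hmem : v0 ∈ {v : Fin 5 → ℝ | m < v 2 - √(v 3 ^ 2 + v 4 ^ 2)} := by
    show m < v0 2 - √(v0 3 ^ 2 + v0 4 ^ 2)
    rw [hm]; linarith
  obtain ⟨r, hr, hsub⟩ := Metric.nhds_basis_closedBall.mem_iff.1 (hop.mem_nhds hmem)
  refine ⟨r, √m, hr, Real.sqrt_pos.2 hm0, fun v hv' => ?_, fun v hv' x => ?_⟩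
  · have h1 : m < v 2 - √(v 3 ^ 2 + v 4 ^ 2) := hsub hv'
    show √(v 3 ^ 2 + v 4 ^ 2) < v 2
    linarith
  · have h1 : m < v 2 - √(v 3 ^ 2 + v 4 ^ 2) := hsub hv'
    rw [Real.sq_sqrt hm0.le]
    linarith [EQ_ge v x]

theorem EF_lip {v w : Fin 5 → ℝ} {s : ℝ} (hs : 0 < s) (x : ℝ) (hv : s ^ 2 ≤ EQ v x)
    (hw : s ^ 2 ≤ EQ w x) : |EF v x - EF w x| ≤ (2 + 3 / (2 * s)) * ‖v - w‖ := by
  have h1 := sq1 hs hv hw
  have h2 := EL_abs (v - w) x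
  have h3 := EQ_abs (v - w) x
  rw [EQ_sub] at h1
  have e : EF v x - EF w x = ((v - w) 0 * Real.cos x + (v - w) 1 * Real.sin x)
      + (√(EQ v x) - √(EQ w x)) := by
    unfold EF; simp only [Pi.sub_apply]; ring
  rw [e]
  have h4 : |EQ (v - w) x| / (2 * s) ≤ 3 * ‖v - w‖ / (2 * s) := by gcongr
  calc _ ≤ |(v - w) 0 * Real.cos x + (v - w) 1 * Real.sin x| + |√(EQ v x) - √(EQ w x)| :=
        abs_add_le _ _
    _ ≤ 2 * ‖v - w‖ + 3 * ‖v - w‖ / (2 * s) := by linarith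
    _ = (2 + 3 / (2 * s)) * ‖v - w‖ := by ring

/-- the direction of the tangent vector `TE v w` in the space of parameters -/
noncomputable def dir (w : Fin 5 → ℝ) : Fin 5 → ℝ := ![w 0, w 1, 2 * w 2, 2 * w 3, 2 * w 4]

theorem EQ_dir (v w : Fin 5 → ℝ) (b x : ℝ) : EQ (v + b • dir w) x = EQ v x + 2 * b * EQ w x := by
  have e2 : dir w 2 = 2 * w 2 := rfl
  have e3 : dir w 3 = 2 * w 3 := rfl
  have e4 : dir w 4 = 2 * w 4 := rfl
  unfold EQ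
  simp only [Pi.add_apply, Pi.smul_apply, smul_eq_mul, e2, e3, e4]
  ring

theorem EF_taylor {v w : Fin 5 → ℝ} {s b : ℝ} (hs : 0 < s) (x : ℝ) (hv : s ^ 2 ≤ EQ v x)
    (hw : s ^ 2 ≤ EQ (v + b • dir w) x) :
    |EF (v + b • dir w) x - EF v x - b * TE v w x| ≤ b ^ 2 * (9 * ‖w‖ ^ 2 / (2 * s ^ 3)) := by
  have h1 := sq2 hs hw hv
  have h3 := EQ_abs w x
  rw [EQ_dir] at h1 hw
  have e0 : dir w 0 = w 0 := rfl
  have e1 : dir w 1 = w 1 := rfl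
  have e : EF (v + b • dir w) x - EF v x - b * TE v w x =
      √(EQ v x + 2 * b * EQ w x) - √(EQ v x) -
        (EQ v x + 2 * b * EQ w x - EQ v x) / (2 * √(EQ v x)) := by
    have hp : 0 < √(EQ v x) := lt_of_lt_of_le hs (sqrt_ge hs hv)
    unfold EF TE
    rw [EQ_dir]
    simp only [Pi.add_apply, Pi.smul_apply, smul_eq_mul, e0, e1]
    field_simp
    ring
  rw [e]
  refine h1.trans ?_
  have h5 : EQ w x ^ 2 ≤ (3 * ‖w‖) ^ 2 := by
    rw [← sq_abs]; exact pow_le_pow_left₀ (abs_nonneg _) h3 2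
  calc (EQ v x + 2 * b * EQ w x - EQ v x) ^ 2 / (8 * s ^ 3) = b ^ 2 * (EQ w x ^ 2 / (2 * s ^ 3)) := by
        field_simp; ring
    _ ≤ b ^ 2 * ((3 * ‖w‖) ^ 2 / (2 * s ^ 3)) := by gcongr
    _ = b ^ 2 * (9 * ‖w‖ ^ 2 / (2 * s ^ 3)) := by ring

theorem TE_lip {v v' w : Fin 5 → ℝ} {s : ℝ} (hs : 0 < s) (x : ℝ) (hv : s ^ 2 ≤ EQ v x)
    (hw : s ^ 2 ≤ EQ v' x) : |TE v w x - TE v' w x| ≤ 9 * ‖w‖ / (2 * s ^ 3) * ‖v - v'‖ := by
  have h1 := sq3 hs hv hw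
  have h2 := EQ_abs (v - v') x
  have h3 := EQ_abs w x
  rw [EQ_sub] at h1
  have e : TE v w x - TE v' w x = EQ w x * ((√(EQ v x))⁻¹ - (√(EQ v' x))⁻¹) := by
    unfold TE; ring
  rw [e, abs_mul]
  calc |EQ w x| * |(√(EQ v x))⁻¹ - (√(EQ v' x))⁻¹|
      ≤ (3 * ‖w‖) * (3 * ‖v - v'‖ / (2 * s ^ 3)) := by
        refine mul_le_mul h3 (h1.trans ?_) (abs_nonneg _) (by positivity)
        gcongr
    _ = 9 * ‖w‖ / (2 * s ^ 3) * ‖v - v'‖ := by ring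

theorem EF_inj {v w : Fin 5 → ℝ} (hv : v ∈ EP) (hw : w ∈ EP) (h : ∀ x, EF v x = EF w x) : v = w := by
  have pos : ∀ {u : Fin 5 → ℝ}, u ∈ EP → ∀ x, 0 < EQ u x := by
    intro u hu x
    have h1 : √(u 3 ^ 2 + u 4 ^ 2) < u 2 := hu
    linarith [EQ_ge u x]
  have hpi : ∀ (u : Fin 5 → ℝ) (x : ℝ), EF u x + EF u (x + Real.pi) = 2 * √(EQ u x) := by
    intro u x
    have e : EQ u (x + Real.pi) = EQ u x := by
      unfold EQ
      have : 2 * (x + Real.pi) = 2 * x + 2 * Real.pi := by ring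
      rw [this, Real.cos_add_two_pi, Real.sin_add_two_pi]
    unfold EF
    rw [e, Real.cos_add_pi, Real.sin_add_pi]
    ring
  have hQ : ∀ x, EQ v x = EQ w x := by
    intro x
    have h1 := hpi v x
    have h2 := hpi w x
    rw [h, h] at h1
    have h3 : √(EQ v x) = √(EQ w x) := by linarith
    exact (Real.sqrt_inj (pos hv x).le (pos hw x).le).1 h3
  have q0 := hQ 0
  have q1 := hQ (Real.pi / 2)
  have q2 := hQ (Real.pi / 4)
  have e0 := h 0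
  have e1 := h (Real.pi / 2)
  unfold EF at e0 e1
  rw [hQ] at e0 e1
  unfold EQ at q0 q1 q2
  have t1 : 2 * (Real.pi / 2) = Real.pi := by ring
  have t2 : 2 * (Real.pi / 4) = Real.pi / 2 := by ring
  rw [t1] at q1
  rw [t2] at q2
  simp only [mul_zero, Real.cos_zero, Real.sin_zero, Real.cos_pi, Real.sin_pi,
    Real.cos_pi_div_two, Real.sin_pi_div_two, mul_one, add_zero, zero_add, mul_neg] at q0 q1 q2 e0 e1
  have c2 : v 2 = w 2 := by linarith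
  have c3 : v 3 = w 3 := by linarith
  have c4 : v 4 = w 4 := by linarith
  have c0 : v 0 = w 0 := by linarith
  have c1 : v 1 = w 1 := by linarith
  funext i
  fin_cases i
  · exact c0
  · exact c1
  · exact c2
  · exact c3
  · exact c4

theorem EF_per (v : Fin 5 → ℝ) (x : ℝ) : EF v (x + 2 * Real.pi) = EF v x := by
  unfold EF EQ
  have e : 2 * (x + 2 * Real.pi) = 2 * x + 2 * Real.pi + 2 * Real.pi := by ring
  rw [e, Real.cos_add_two_pi, Real.cos_add_two_pi, Real.cos_add_two_pi, Real.sin_add_two_pi,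
    Real.sin_add_two_pi, Real.sin_add_two_pi]

end Vale.Agent.P097.TOP
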